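import Vale.Agent.P354CB.Ez
import Vale.Agent.P354YG.Inn

/-!
The union of the slices is a Cauchy surface of the glued spacetime.
-/

open Set Filter Topology

namespace Vale.Agent.P354CB73

open Vale.Agent.P354n Vale.Agent.P354CB
open Vale.Agent.P354I (X Dat)
open Vale.Agent.P354J (PDy)

/-- The largest interval around t on which the curve stays in an open set. -/
theorem exists_max {Y : Type} [TopologicalSpace Y] [T2Space Y] {W : Set Y} (hW : IsOpen W)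
    {c : ℝ → Y} {l r t : ℝ} (hc : ContinuousOn c (Ioo l r)) (hl : NoP c l W) (hr : NoF c r W)
    (ht : t ∈ Ioo l r) (hw : c t ∈ W) : ∃ a b, t ∈ Ioo a b ∧ Ioo a b ⊆ Ioo l r ∧
      MapsTo c (Ioo a b) W ∧ NoP c a W ∧ NoF c b W := by
  have cl : IsClosed (Ioo l r ∩ c ⁻¹' W)ᶜ := (hc.isOpen_inter_preimage isOpen_Ioo hW).isClosed_compl
  set G := Ioo l r ∩ c ⁻¹' W
  have ml : l ∈ Gᶜ ∩ Iic t := ⟨fun k => lt_irrefl _ k.1.1, ht.1.le⟩
  have mr : r ∈ Gᶜ ∩ Ici t := ⟨fun k => lt_irrefl _ k.1.2, ht.2.le⟩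
  have ba : BddAbove (Gᶜ ∩ Iic t) := ⟨t, fun _ k => k.2⟩
  have bb : BddBelow (Gᶜ ∩ Ici t) := ⟨t, fun _ k => k.2⟩
  have ha := (cl.inter isClosed_Iic).csSup_mem ⟨l, ml⟩ ba
  have hb := (cl.inter isClosed_Ici).csInf_mem ⟨r, mr⟩ bb
  have la := le_csSup ba ml
  have rb := csInf_le bb mr
  set a := sSup (Gᶜ ∩ Iic t)
  set b := sInf (Gᶜ ∩ Ici t)
  have a1 : a < t := lt_of_le_of_ne ha.2 fun e => ha.1 (e ▸ ⟨ht, hw⟩)
  have b1 : t < b := lt_of_le_of_ne hb.2 fun e => hb.1 (e ▸ ⟨ht, hw⟩)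
  have m : ∀ s ∈ Ioo a b, s ∈ G := fun s hs => by
    by_contra n
    rcases le_total s t with k | k
    · exact hs.1.not_ge (le_csSup ba ⟨n, k⟩)
    · exact hs.2.not_ge (csInf_le bb ⟨n, k⟩)
  refine ⟨a, b, ⟨a1, b1⟩, fun s hs => (m s hs).1, fun s hs => (m s hs).2, fun x hx k => ?_,
    fun x hx k => ?_⟩
  · rcases la.eq_or_lt with e | e
    · exact hl x hx (e ▸ k)
    have ma : a ∈ Ioo l r := ⟨e, a1.trans ht.2⟩
    have := tendsto_nhds_unique ((hc.continuousAt (isOpen_Ioo.mem_nhds ma)).tendsto.mono_left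
      nhdsWithin_le_nhds) k
    exact ha.1 ⟨ma, show c a ∈ W from this ▸ hx⟩
  · rcases rb.eq_or_lt with e | e
    · exact hr x hx (e ▸ k)
    have mb : b ∈ Ioo l r := ⟨ht.1.trans b1, e⟩
    have := tendsto_nhds_unique ((hc.continuousAt (isOpen_Ioo.mem_nhds mb)).tendsto.mono_left
      nhdsWithin_le_nhds) k
    exact hb.1 ⟨mb, show c b ∈ W from this ▸ hx⟩

variable {d : Dat} {ι : Type} {A : ι → LD d} {N : Spc} {κ : ∀ i, (A i).N.pt → N.pt}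

theorem side (T : L3) (hd : PDy d) (h : Gl A N κ) {i k x x'} (e : κ i x = κ k x') :
    (x ∈ (A i).S ↔ x' ∈ (A k).S) ∧ (x ∈ Fu (A i).N (A i).S ↔ x' ∈ Fu (A k).N (A k).S) ∧
      (x ∈ Pa (A i).N (A i).S ↔ x' ∈ Pa (A k).N (A k).S) := by
  obtain ⟨U, ψ, k, hx, rfl⟩ := (h.eq i k x x').1 e
  exact T.side d hd _ _ U ψ k x hx

theorem mem_s (T : L3) (hd : PDy d) (h : Gl A N κ) {i x} :
    κ i x ∈ ⋃ i, κ i '' (A i).S ↔ x ∈ (A i).S :=
  ⟨fun m => by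
    obtain ⟨k, x', m1, e⟩ := mem_iUnion.1 m
    exact (side T hd h e).1.1 m1, fun m => mem_iUnion.2 ⟨i, x, m, rfl⟩⟩

/-- The largest lift of a curve without end points. -/
theorem lift (h : Gl A N κ) {c : ℝ → N.pt} {l r t : ℝ} (hc : Cv N (Ioo l r) c)
    (hl : NoP c l univ) (hr : NoF c r univ) (ht : t ∈ Ioo l r) :
    ∃ i a b u, t ∈ Ioo a b ∧ Ioo a b ⊆ Ioo l r ∧ Cv (A i).N (Ioo a b) u ∧
      (∀ s ∈ Ioo a b, κ i (u s) = c s) ∧ NoP u a univ ∧ NoF u b univ := by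
  obtain ⟨i, x, hx⟩ := h.cover (c t)
  obtain ⟨a, b, m, s, w, n1, n2⟩ := exists_max (h.emb i).isOpen_range hc.1
    (fun y _ => hl y trivial) (fun y _ => hr y trivial) ht ⟨x, hx⟩
  obtain ⟨u, u1, u2⟩ := P354YG.cv_lift (A i).h.gh.st.sp h.st.sp (h.emb i) (h.iso i)
    isOpen_Ioo.uniqueDiffOn ⟨t, m⟩ (P354YG.cv_mono hc s isOpen_Ioo.uniqueDiffOn) w
  have ab : a < b := m.1.trans m.2
  refine ⟨i, a, b, u, m, s, u1, u2, fun y _ k => n1 _ ⟨y, rfl⟩ ?_, fun y _ k => n2 _ ⟨y, rfl⟩ ?_⟩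
  · exact (((h.emb i).continuous.tendsto y).comp k).congr'
      (mem_of_superset (Ioo_mem_nhdsGT ab) u2)
  · exact (((h.emb i).continuous.tendsto y).comp k).congr'
      (mem_of_superset (Ioo_mem_nhdsLT ab) u2)

/-- The union of the slices is a Cauchy surface. -/
theorem cauchy (Z : L0) (T : L3) (hd : PDy d) (h : Gl A N κ) :
    GH0 N (⋃ i, κ i '' (A i).S) := by
  refine ⟨h.st, h.sc, fun c hc n => ?_⟩
  have G : ∀ i, G1 (A i).N (A i).S := fun i => Z.l2.g1 _ _ (A i).h.gh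
  have st : ∀ i, St (A i).N := fun i => (A i).h.gh.st
  have lf := fun t ht => lift h hc (t := t) (fun x _ => (n x).2) (fun x _ => (n x).1) ht
  set P : Set N.pt := ⋃ i, κ i '' Pa (A i).N (A i).S
  have mP : ∀ {i x}, κ i x ∈ P ↔ x ∈ Pa (A i).N (A i).S := fun {i x} => ⟨fun m => by
    obtain ⟨k, x', m1, e⟩ := mem_iUnion.1 m
    exact (side T hd h e).2.2.1 m1, fun m => mem_iUnion.2 ⟨i, x, m, rfl⟩⟩
  have oP : IsOpen P := isOpen_iUnion fun i => (h.emb i).isOpenMap _ (Z.l1.opPa (st i) _)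
  have up : ∀ {i a b u s s'}, Cv (A i).N (Ioo a b) u → s ∈ Ioo a b → s' ∈ Ioo a b → s < s' →
      u s ∉ Pa (A i).N (A i).S → u s' ∈ Fu (A i).N (A i).S := fun {i a b u s s'} k m m' l q => by
    have ll := Z.l1.b.ll_cv (st i) k (Icc_subset_Ioo m.1 m'.2) l
    rcases (G i).tri (u s) with w | w | w
    · exact ⟨_, w, ll⟩
    · exact Z.l1.fu_up (st i) w ll
    · exact (q w).elim
  have two : ∀ s ∈ Ioo (0 : ℝ) 1, ∀ t ∈ Ioo (0 : ℝ) 1, c s ∈ ⋃ i, κ i '' (A i).S →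
      c t ∈ ⋃ i, κ i '' (A i).S → ¬ s < t := fun s hs t ht ms mt l => by
    have sub : Icc s t ⊆ Ioo 0 1 := Icc_subset_Ioo hs.1 ht.2
    have all : Icc s t ⊆ c ⁻¹' Pᶜ := by
      refine IsClosed.Icc_subset_of_forall_mem_nhdsWithin ?_ ?_ fun x hx => ?_
      · rw [inter_comm]
        exact (hc.1.mono sub).preimage_isClosed_of_isClosed isClosed_Icc oP.isClosed_compl
      · obtain ⟨i, x, m, e⟩ := mem_iUnion.1 ms
        exact fun k => (L1.s_fu (G i) m).2 (mP.1 (e ▸ k))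
      · obtain ⟨i, a, b, u, m, -, u1, u2, -⟩ := lf x (sub (Ico_subset_Icc_self hx.2))
        filter_upwards [Ioo_mem_nhdsGT m.2] with y hy k
        have my : y ∈ Ioo a b := ⟨m.1.trans hy.1, hy.2⟩
        exact Z.l1.fu_pa (st i) (G i) (up u1 m my hy.1 fun q => hx.1 (u2 x m ▸ mP.2 q))
          (mP.1 (u2 y my ▸ k))
    obtain ⟨i, a, b, u, m, -, u1, u2, -⟩ := lf t ht
    obtain ⟨y, y1, y2⟩ := exists_between (max_lt l m.1)
    have my : y ∈ Ioo a b := ⟨(le_max_right _ _).trans_lt y1, y2.trans m.2⟩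
    exact (L1.s_fu (G i) ((mem_s T hd h).1 (u2 t m ▸ mt))).1 (up u1 my m y2 fun q =>
      all ⟨((le_max_left _ _).trans_lt y1).le, y2.le⟩ (u2 y my ▸ mP.2 q))
  obtain ⟨i, a, b, u, m, s, u1, u2, n1, n2⟩ := lf (1 / 2) ⟨by norm_num, by norm_num⟩
  obtain ⟨t, ⟨t1, t2⟩, -⟩ := (G i).cau a b u (m.1.trans m.2) u1 n1 n2
  have mt : c t ∈ ⋃ i, κ i '' (A i).S := u2 t t1 ▸ (mem_s T hd h).2 t2
  exact ⟨t, ⟨s t1, mt⟩, fun y hy => le_antisymm (not_lt.1 (two t (s t1) y hy.1 mt hy.2))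
    (not_lt.1 (two y hy.1 t (s t1) hy.2 mt))⟩

end Vale.Agent.P354CB73
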