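import Vale.Agent.P354CB73.Cau

/-!
The glued spacetime is a development of the data.
-/

open Set Filter Topology

namespace Vale.Agent.P354CB73

open Vale.Agent.P354n Vale.Agent.P354CB
open Vale.Agent.P354I (X Dat IsDev)
open Vale.Agent.P354J (PDy)

theorem ind_congr {g Xf} {J J' : X → R4} {d : Dat} {y : X} (h : P354YC.IndAt g Xf J d y)
    (e : J' =ᶠ[𝓝 y] J) : P354YC.IndAt g Xf J' d y := by
  have a : ∀ i, P354I.pd i J' =ᶠ[𝓝 y] P354I.pd i J := fun i =>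
    e.fderiv.mono fun z k => congrArg (fun l : X →L[ℝ] R4 => l _) k
  have b : ∀ i k, P354I.pd i (P354I.pd k J') y = P354I.pd i (P354I.pd k J) y := fun i k =>
    congrArg (fun l : X →L[ℝ] R4 => l _) (a k).fderiv_eq
  unfold P354YC.IndAt
  simp only [e.eq_of_nhds, fun i => (a i).eq_of_nhds, b]
  exact h

theorem gl2 (Z : L0) (T : L3) : GL2 := fun d hd ι A N κ h cov => by
  have st : ∀ i, St (A i).N := fun i => (A i).h.gh.st
  obtain ⟨y0, h0⟩ := exists_ne (0 : X)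
  have ex : ∀ y : X, ∃ p : N.pt, ∀ i, y ∈ (A i).O → κ i ((A i).j y) = p := fun y => by
    by_cases k : ∃ i, y ∈ (A i).O
    · obtain ⟨i, k⟩ := k
      exact ⟨κ i ((A i).j y), fun i' k' => (h.eq _ _ _ _).2 (T.base d hd _ _ y k' k)⟩
    · obtain ⟨i, -⟩ := cov y0 h0
      exact ⟨κ i ((A i).j y), fun i' k' => (k ⟨i', k'⟩).elim⟩
  choose j hj using ex
  have back : ∀ y ≠ 0, ∀ i x, κ i x = j y → y ∈ (A i).O ∧ x = (A i).j y := fun y hy i x e => by
    obtain ⟨k, m⟩ := cov y hy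
    obtain ⟨U, ψ, C, m1, rfl⟩ := (h.eq k i _ x).1 ((hj y k m).trans e.symm)
    exact C.sl y m m1
  have ev : ∀ i, ∀ y ∈ (A i).O, (fun z => κ i ((A i).j z)) =ᶠ[𝓝 y] j := fun i y m =>
    mem_of_superset ((A i).h.op.mem_nhds m) fun z k => hj z i k
  have ct : ∀ y ≠ 0, ContinuousAt j y := fun y hy => by
    obtain ⟨i, m⟩ := cov y hy
    exact (((h.emb i).continuous.continuousAt).comp ((A i).h.cont m)).congr (ev i y m)
  have im : j '' {0}ᶜ = ⋃ i, κ i '' (A i).S := by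
    ext p
    constructor
    · rintro ⟨y, hy, rfl⟩
      obtain ⟨i, m⟩ := cov y hy
      exact mem_iUnion.2 ⟨i, _, ⟨y, m, rfl⟩, hj y i m⟩
    · intro k
      obtain ⟨i, _, ⟨y, m, rfl⟩, rfl⟩ := mem_iUnion.1 k
      exact ⟨y, (A i).h.nz m, (hj y i m).symm⟩
  have pc : IsPreconnected (j '' {0}ᶜ) :=
    (isConnected_compl_singleton_of_one_lt_rank (by simp [← Module.finrank_eq_rank, X]) (0 : X)
      ).isPreconnected.image j fun y hy => (ct y hy).continuousWithinAt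
  refine ⟨j, ⟨h.st.sp, ?_, h.sc, h.st.vac, ⟨isInducing_iff_nhds.2 fun y => le_antisymm ?_ ?_,
    fun y y' e => ?_⟩, im ▸ (cauchy Z T hd h).cauchy, fun y hy => ?_⟩, fun i y m => hj y i m⟩
  · refine connectedSpace_iff_univ.2 ⟨⟨j y0, trivial⟩, isPreconnected_of_forall (j y0) fun p _ => ?_⟩
    obtain ⟨i, x, rfl⟩ := h.cover p
    obtain ⟨s, ms, C, -, c1, c2, c3⟩ :=
      (Z.l2.g3 _ _ (Z.l2.ac d _ _ _ hd (A i).h)).con univ Hull.univ x trivial
    have m : κ i s ∈ j '' {0}ᶜ := im ▸ mem_iUnion.2 ⟨i, s, ms, rfl⟩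
    exact ⟨j '' {0}ᶜ ∪ κ i '' C, subset_univ _, Or.inl ⟨y0, h0, rfl⟩, Or.inr ⟨x, c2, rfl⟩,
      pc.union (κ i s) m ⟨s, c3, rfl⟩ (c1.image _ (h.emb i).continuous.continuousOn)⟩
  · exact tendsto_iff_comap.1 ((ct y y.2).comp continuous_subtype_val.continuousAt)
  · obtain ⟨i, m⟩ := cov y y.2
    intro V hV
    obtain ⟨V', v1, v2⟩ := (mem_nhds_subtype _ _ _).1 hV
    have k : (fun z : (A i).O => (z : X)) ⁻¹' V' ∈ 𝓝 (⟨y, m⟩ : (A i).O) :=
      continuous_subtype_val.continuousAt v1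
    rw [(A i).h.emb.nhds_eq_comap] at k
    obtain ⟨W, w1, w2⟩ := mem_comap.1 k
    refine mem_comap.2 ⟨κ i '' W, hj y i m ▸ (h.emb i).isOpenMap.image_mem_nhds w1, ?_⟩
    rintro z ⟨x, mx, e⟩
    obtain ⟨b1, rfl⟩ := back z z.2 i x e
    exact v2 (w2 (a := ⟨z, b1⟩) mx)
  · obtain ⟨i, m⟩ := cov y y.2
    obtain ⟨b1, b2⟩ := back y' y'.2 i _ ((hj y i m).trans e)
    exact Subtype.ext ((A i).h.inj m b1 b2)
  · obtain ⟨i, m⟩ := cov y hy
    obtain ⟨e, he⟩ := (A i).N.cover ((A i).j y)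
    obtain ⟨e', he'⟩ := N.cover (j y)
    obtain ⟨a1, a2⟩ := (A i).h.ind y m e he
    obtain ⟨b1, b2⟩ := Z.k2.ind (st i) h.st ((A i).h.cont m) he a1 a2
      (Eventually.of_forall (Z.k1.of_isom (h.iso i) (h.emb i).continuous)) (e' := e')
      (show On e' _ from hj y i m ▸ he')
    have q : (fun z => co e' (j z)) =ᶠ[𝓝 y] fun z => co e' (κ i ((A i).j z)) :=
      (ev i y m).mono fun z k => congrArg (co e') k.symm
    obtain ⟨G, n, b⟩ := ind_congr b2 q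
    exact ⟨e', _, G, n, rfl, he', b1.congr_of_eventuallyEq q, b⟩

end Vale.Agent.P354CB73
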